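import Vale.Agent.H24.MUB6.Arith

/-!
# P355: vectors of sixth-root type (or of fourth-root type) in dimension six are never unbiased

Two unit vectors `x, y` of `ℂ^6` are unbiased when `|⟨x, y⟩|^2 = 1/6`.  If all coordinates of
`x` and of `y` are sixth roots of unity divided by `√6` (or all are fourth roots of unity
divided by `√6`), this never happens.
-/

namespace Vale.Agent.Results.P355.A_RootOfUnityBases

open Vale.Agent.H24.MUB6

/-- Let `x, y ∈ ℂ^6` be vectors such that either all numbers `√6 * x k`, `√6 * y k` are sixth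
roots of unity, or all of them are fourth roots of unity. Then `|⟨x, y⟩|^2 ≠ 1/6`: the vectors
`x` and `y` are not unbiased. -/
theorem result :
    ∀ (x y : EuclideanSpace ℂ (Fin 6)),
      ((∀ k, ((Real.sqrt 6 : ℂ) * x k) ^ 6 = 1) ∧ (∀ k, ((Real.sqrt 6 : ℂ) * y k) ^ 6 = 1)) ∨
      ((∀ k, ((Real.sqrt 6 : ℂ) * x k) ^ 4 = 1) ∧ (∀ k, ((Real.sqrt 6 : ℂ) * y k) ^ 4 = 1)) →
      ‖inner ℂ x y‖ ^ 2 ≠ 1 / 6 := by
  intro x y h hxy
  have h6 : ((Real.sqrt 6 : ℝ) : ℂ) * ((Real.sqrt 6 : ℝ) : ℂ) = 6 := by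
    rw [← Complex.ofReal_mul, Real.mul_self_sqrt (by norm_num)]
    norm_num
  have h1 : ∑ k, (starRingEnd ℂ) ((Real.sqrt 6 : ℂ) * x k) * ((Real.sqrt 6 : ℂ) * y k)
      = 6 * inner ℂ x y := by
    rw [PiLp.inner_apply, Finset.mul_sum]
    refine Finset.sum_congr rfl fun k _ => ?_
    rw [map_mul, Complex.conj_ofReal, RCLike.inner_apply, ← h6]
    ring
  have key : Complex.normSq
      (∑ k, (starRingEnd ℂ) ((Real.sqrt 6 : ℂ) * x k) * ((Real.sqrt 6 : ℂ) * y k)) = 6 := by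
    rw [h1, map_mul, Complex.normSq_eq_norm_sq (inner ℂ x y), hxy]
    have h2 : Complex.normSq (6 : ℂ) = 36 := by
      rw [Complex.normSq_apply]
      norm_num
    rw [h2]
    norm_num
  rcases h with ⟨hx, hy⟩ | ⟨hx, hy⟩
  · exact normSq_sum_ne_six_of_sixth _ _ hx hy key
  · exact normSq_sum_ne_six_of_fourth _ _ hx hy key

end Vale.Agent.Results.P355.A_RootOfUnityBases
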