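import Mathlib
import Vale.Agent.H69.P355.Main

/-!
# P355: three pairwise unbiased unit vectors of `ℂ⁶` are not all defined over `ℚ(i)`, nor all
over `ℚ(√-3)`

Two unit vectors `x, y` of `ℂ⁶` are unbiased when `|⟨x, y⟩|² = 1/6`; two orthonormal bases are
mutually unbiased when each vector of one is unbiased to each vector of the other.  For three
pairwise unbiased unit vectors `x, y, z` (for instance one vector from each of three pairwise
mutually unbiased bases) the triple product `T = ⟨x, y⟩ ⟨y, z⟩ ⟨z, x⟩` (the Bargmann invariant,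
unchanged when each vector is multiplied by a phase and when a unitary is applied to all three)
has `|36 T|² = 6`.  As `6` is not a norm from `ℚ(i)` nor from `ℚ(√-3)`, `T` lies in neither
field; hence the three vectors are not all complex multiples of vectors with coordinates in
`ℚ(i)`, nor all of vectors with coordinates in `ℚ(√-3)`.
-/

namespace Vale.Agent.Results.P355.B_BargmannInvariantField

open Vale.Agent.H69.P355

/-- Let `x, y, z` be pairwise unbiased unit vectors of `ℂ⁶`. Then `⟨x, y⟩ ⟨y, z⟩ ⟨z, x⟩` is not of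
the form `p + q i` and not of the form `p + q ω` with `p, q` rational (`ω = omega`, the primitive
cube root of unity), and `x, y, z` are not all complex multiples of vectors with coordinates in
`ℚ(i)`, nor all complex multiples of vectors with coordinates in `ℚ(√-3) = ℚ + ℚ ω`. -/
theorem result (x y z : EuclideanSpace ℂ (Fin 6))
    (hx : ‖x‖ = 1) (hy : ‖y‖ = 1) (hz : ‖z‖ = 1)
    (hxy : Unbiased x y) (hyz : Unbiased y z) (hzx : Unbiased z x) :
    (∀ p q : ℚ, tripleProduct x y z ≠ (p : ℂ) + (q : ℂ) * Complex.I) ∧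
    (∀ p q : ℚ, tripleProduct x y z ≠ (p : ℂ) + (q : ℂ) * omega) ∧
    ¬ (RatMultiple Complex.I x ∧ RatMultiple Complex.I y ∧ RatMultiple Complex.I z) ∧
    ¬ (RatMultiple omega x ∧ RatMultiple omega y ∧ RatMultiple omega z) := by
  have hxy' : ‖inner ℂ x y‖ ^ 2 = 1 / 6 := hxy
  have hyz' : ‖inner ℂ y z‖ ^ 2 = 1 / 6 := hyz
  have hzx' : ‖inner ℂ z x‖ ^ 2 = 1 / 6 := hzx
  have h1 : ∀ p q : ℚ, tripleProduct x y z ≠ (p : ℂ) + (q : ℂ) * Complex.I :=
    triple_not_I _ _ _ hxy' hyz' hzx'
  have h2 : ∀ p q : ℚ, tripleProduct x y z ≠ (p : ℂ) + (q : ℂ) * omega :=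
    triple_not_omega _ _ _ hxy' hyz' hzx'
  refine ⟨h1, h2, ?_, ?_⟩
  · rintro ⟨rx, ry, rz⟩
    obtain ⟨p, q, hpq⟩ := bargmann_inK quadGen_I x y z hx hy hz rx ry rz
    exact h1 p q hpq
  · rintro ⟨rx, ry, rz⟩
    obtain ⟨p, q, hpq⟩ := bargmann_inK quadGen_omega x y z hx hy hz rx ry rz
    exact h2 p q hpq

end Vale.Agent.Results.P355.B_BargmannInvariantField
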